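import Vale.Agent.P329.Wreath

/-!
# P329: generalized star height one for aperiodic monoids over a class of groups

Let `G` be a finite group that is a subdirect product of nilpotent groups of class at most three and
of groups with an abelian normal subgroup whose quotient is elementary abelian (for any prime), and
let `M` be a finite aperiodic monoid reading each letter together with the value in `G` of the word
before it. Every language recognized in this way has generalized star height at most one.
-/

namespace Vale.Agent.Results.P329.AperiodicOverPrimeExtensions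

open Vale.Agent.P329

/-- Every language recognized by such a wreath product has generalized star height at most one. -/
theorem result (α : Type) [Finite α] (G : Type) [Group G] [Finite G]
    (hG : ∀ g : G, g ≠ 1 → ∃ N : Subgroup G, N.Normal ∧ g ∉ N ∧
      ((⊤ : Subgroup G).lowerCentralSeries 3 ≤ N ∨
        ∃ (p : ℕ) (K : Subgroup G), p.Prime ∧ K.Normal ∧ N ≤ K ∧
          (∀ x ∈ K, ∀ y ∈ K, x * y * x⁻¹ * y⁻¹ ∈ N) ∧
          (∀ x y : G, x * y * x⁻¹ * y⁻¹ ∈ K) ∧ ∀ x : G, x ^ p ∈ K))
    (M : Type) [Monoid M] [Finite M] (hM : ∀ x : M, ∃ n : ℕ, x ^ n = x ^ (n + 1))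
    (f : α → G) (μ : G → α → M) (P : Set (M × G)) :
    ∃ e : GenExp α, e.height ≤ 1 ∧ e.lang = {w : List α |
      (((List.zip (List.scanl (fun x y => x * y) 1 (w.map f)) w).map fun q => μ q.1 q.2).prod,
        (w.map f).prod) ∈ P} := by
  classical
  have h : Good (fun w : List α =>
      (((sigG f 1 w).map fun q => μ q.1 q.2).prod, (w.map f).prod)) :=
    wreath_good (subdirect_good_prime hG f) hM fun q => μ q.1 q.2
  exact (HeightLE.iUnion
    (fun p : P => lg fun w : List α =>
      (((sigG f 1 w).map fun q => μ q.1 q.2).prod, (w.map f).prod) = p.1)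
    fun p => h p.1).of_eq fun w => by
      show (∃ p : P, (((sigG f 1 w).map fun q => μ q.1 q.2).prod, (w.map f).prod) = p.1) ↔
        (((List.zip (List.scanl (fun x y => x * y) 1 (w.map f)) w).map fun q => μ q.1 q.2).prod,
          (w.map f).prod) ∈ P
      rw [← sigG_eq_zip]
      exact ⟨fun ⟨p, hp⟩ => hp ▸ p.2, fun hp => ⟨⟨_, hp⟩, rfl⟩⟩

end Vale.Agent.Results.P329.AperiodicOverPrimeExtensions
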